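import Vale.Agent.P354I.Core
import Vale.Agent.P354CU.Uni

/-!
Finite speed of propagation in x: the solutions for the cut-off data agree.
-/

open scoped ContDiff
open Set Filter Topology

namespace Vale.Agent.P354IG

open Vale.Agent.P354C Vale.Agent.P354H Vale.Agent.P354CS Vale.Agent.P354CU
open Vale.Agent.P354n (R4)

/-- Uniqueness for the reduced system with the same right side. -/
theorem uni2 {U U' : R4 → Ix → ℝ} {ι : Type} [Fintype ι] {φ : ι → R4 → ℝ}
    {Ω D : Set R4} {ε t0 T : ℝ} (hε : ε = 1 ∨ ε = -1) (hO : IsOpen Ω) (hD : IsCompact D)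
    (hs : D ⊆ Ω) (hU : SmU U Ω) (hU' : SmU U' Ω) (hφ : ∀ i, ContDiff ℝ 1 (φ i))
    (H : ∀ p : R4, ε * (p.1 - t0) ∈ Icc 0 T → (∀ i, φ i p < 0) →
      p ∈ D ∧ (∀ i, res (U p) (dfr U p) i = res (U' p) (dfr U' p) i) ∧ ∀ i, Causal ε U (φ i) p)
    (h0 : ∀ p : R4, p.1 = t0 → (∀ i, φ i p < 0) → U p = U' p) :
    ∀ p : R4, ε * (p.1 - t0) ∈ Icc 0 T → (∀ i, φ i p < 0) → U p = U' p := by
  have s : ContDiffOn ℝ ∞ U Ω := contDiffOn_pi.2 hU
  have s' : ContDiffOn ℝ ∞ U' Ω := contDiffOn_pi.2 hU'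
  have sW : ContDiffOn ℝ ∞ (fun p => Dm (U p - U' p)) Ω := Dm.contDiff.comp_contDiffOn (s.sub s')
  have pe : pert U' (fun p => Dm (U p - U' p)) = U := by
    funext p
    simp [pert_eq, Di_Dm]
  have c : ContinuousOn (fun p => (sysK U').b p + (sysK U').q p (Dm (U p - U' p))) Ω :=
    ((continuousOn_const.add (Lb.continuous.comp_continuousOn s'.continuousOn)).add
      (continuousOn_finsetSum _ fun j _ => (Lc _).continuous.comp_continuousOn
        ((s'.continuousOn_fderiv_of_isOpen hO (by simp)).clm_apply continuousOn_const))).add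
      (continuousOn_const.clm_apply sW.continuousOn)
  obtain ⟨K, hK⟩ := hD.exists_bound_of_continuousOn (c.mono hs)
  intro p hp hp'
  have := uniqE (A := fun j p => cR Di (B PT (E0 j.succ)) + La j.succ (U p)) (K := K) hε hO hD hs hφ
    (fun j => contDiffOn_const.add ((La _).contDiff.comp_contDiffOn (s.of_le (by simp))))
    (sW.of_le (by simp)) (fun q hq hq' => ?_) (fun x hx => by rw [h0 _ rfl hx, sub_self, map_zero])
    p hp hp'
  · simpa [Di_Dm, sub_eq_zero] using congrArg Di this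
  obtain ⟨h1, h2, h4⟩ := H q hq hq'
  have a : ∀ (j : Fin 3) z, (cR Di (B PT (E0 j.succ)) + La j.succ (U q)) z =
      B PT (E0 j.succ + EL j.succ (U q)) (Di z) := fun j z => by simp [La, cR_ap]
  have n := hO.mem_nhds (hs h1)
  have ho := (holds_iff ((s'.contDiffAt n).differentiableAt (by simp))
    ((sW.contDiffAt n).differentiableAt (by simp))).2 fun i => by rw [pe, h2 i]
  refine ⟨h1, fun j v w => ?_, ?_, fun i z => ?_⟩
  · rw [a, a]
    exact sym_B1 _ v w
  · rw [ho]
    simp only [a, A_ap, Di_Dm, add_sub_cancel, add_sub_cancel_left]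
    exact ap_le (hK q h1) le_rfl
  · simp only [a]
    exact causal_ineq hε (h4 i) z

/-- The frame derivatives depend on the germ only. -/
theorem dfr_congr {U V : R4 → Ix → ℝ} {p : R4} (h : U =ᶠ[𝓝 p] V) : dfr U p = dfr V p := by
  funext k i
  have e : (fun z => U z i) =ᶠ[𝓝 p] fun z => V z i := h.mono fun z hz => congrFun hz i
  simp only [dfr, e.fderiv_eq, h.eq_of_nhds]

theorem res_congr {U V : R4 → Ix → ℝ} {p : R4} (h : U =ᶠ[𝓝 p] V) (i : Ix) :
    res (U p) (dfr U p) i = res (V p) (dfr V p) i := by rw [dfr_congr h, h.eq_of_nhds]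

/-- The linear function a t + b x + c y1 + d y2. -/
noncomputable def lf (a b c d : ℝ) : R4 →L[ℝ] ℝ :=
  a • ContinuousLinearMap.fst ℝ ℝ X3 +
    b • (ContinuousLinearMap.fst ℝ ℝ (ℝ × ℝ)).comp (ContinuousLinearMap.snd ℝ ℝ X3) +
    c • (ContinuousLinearMap.fst ℝ ℝ ℝ).comp ((ContinuousLinearMap.snd ℝ ℝ (ℝ × ℝ)).comp
      (ContinuousLinearMap.snd ℝ ℝ X3)) +
    d • (ContinuousLinearMap.snd ℝ ℝ ℝ).comp ((ContinuousLinearMap.snd ℝ ℝ (ℝ × ℝ)).comp
      (ContinuousLinearMap.snd ℝ ℝ X3))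

theorem lf_ap (a b c d : ℝ) (p : R4) :
    lf a b c d p = a * p.1 + b * p.2.1 + c * p.2.2.1 + d * p.2.2.2 := rfl

theorem fd_lf (a b c d R : ℝ) (p : R4) : fderiv ℝ (fun q => lf a b c d q - R) p = lf a b c d := by
  rw [fderiv_sub_const, ContinuousLinearMap.fderiv]

/-- The functions ε t ± x are causal. -/
theorem causal_x {ε s : ℝ} (hε : ε = 1 ∨ ε = -1) (hs : s = 1 ∨ s = -1) (U : R4 → Ix → ℝ) (R : ℝ)
    (p : R4) : Causal ε U (fun q => lf ε s 0 0 q - R) p := by
  unfold Causal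
  rw [fd_lf]
  simp only [lf_ap, fr, vec, E]
  rcases hε with rfl | rfl <;> rcases hs with rfl | rfl <;> simp

/-- The functions 2 B ε t ± y are causal where the unknowns are bounded by B. -/
theorem causal_y {ε c d B : ℝ} (hε : ε = 1 ∨ ε = -1) (hc : |c| + |d| ≤ 1) {U : R4 → Ix → ℝ} (R : ℝ)
    {p : R4} (h : ∀ i, |U p i| ≤ B) : Causal ε U (fun q => lf (2 * B * ε) 0 c d q - R) p := by
  have hB : 0 ≤ B := (abs_nonneg _).trans (h .O)
  have k : ∀ i j, |c * U p i + d * U p j| ≤ B := fun i j => by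
    refine (abs_add_le _ _).trans ?_
    rw [abs_mul, abs_mul]
    nlinarith [h i, h j, abs_nonneg c, abs_nonneg d, mul_le_mul_of_nonneg_left (h i) (abs_nonneg c),
      mul_le_mul_of_nonneg_left (h j) (abs_nonneg d)]
  have k1 := abs_le.1 (k .b1 .b2)
  have k2 := sq_le_sq' (abs_le.1 (k .P11 .P12)).1 (abs_le.1 (k .P11 .P12)).2
  have k3 := sq_le_sq' (abs_le.1 (k .P21 .P22)).1 (abs_le.1 (k .P21 .P22)).2
  unfold Causal
  rw [fd_lf]
  simp only [lf_ap, fr, vec, E]
  rcases hε with rfl | rfl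
  · simp only [Matrix.cons_val]
    refine ⟨by linarith, by linarith, ?_⟩
    nlinarith [mul_le_mul_of_nonneg_left k1.1 hB]
  · simp only [Matrix.cons_val]
    refine ⟨by linarith, by linarith, ?_⟩
    nlinarith [mul_le_mul_of_nonneg_left k1.2 hB]

/-- Finite speed 1 in x for bounded smooth unknowns. -/
theorem speed {U U' : R4 → Ix → ℝ} {B N ε : ℝ} (hε : ε = 1 ∨ ε = -1) (hU : SmU U univ)
    (hU' : SmU U' univ) (hB : ∀ q i, |U q i| ≤ B) {p : R4} (h0 : 0 ≤ ε * p.1)
    (hp : ε * p.1 + |p.2.1| < N)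
    (H : ∀ q : R4, ε * q.1 ∈ Icc 0 (ε * p.1) → ∀ i,
      res (U q) (dfr U q) i = res (U' q) (dfr U' q) i)
    (hi : ∀ z : X3, |z.1| < N → U (0, z) = U' (0, z)) : U p = U' p := by
  have hB0 : 0 ≤ B := (abs_nonneg _).trans (hB p .O)
  obtain ⟨R, hR⟩ : ∃ R, R = 2 * B * (ε * p.1) + |p.2.2.1| + |p.2.2.2| + 1 := ⟨_, rfl⟩
  let φ : Fin 6 → R4 → ℝ := ![fun q => lf ε 1 0 0 q - N, fun q => lf ε (-1) 0 0 q - N,
    fun q => lf (2 * B * ε) 0 1 0 q - R, fun q => lf (2 * B * ε) 0 (-1) 0 q - R,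
    fun q => lf (2 * B * ε) 0 0 1 q - R, fun q => lf (2 * B * ε) 0 0 (-1) q - R]
  have e3 : ∀ t : ℝ, |t| = |ε * t| := fun t => by rcases hε with rfl | rfl <;> simp
  refine uni2 (φ := φ) (D := Metric.closedBall 0 (N + R)) (t0 := 0) (T := ε * p.1) hε isOpen_univ
    (isCompact_closedBall _ _) (subset_univ _) hU hU' (fun i => ?_) (fun q hq hq' => ?_)
    (fun q hq hq' => ?_) p (by simpa using h0) fun i => ?_
  · fin_cases i <;> exact (ContinuousLinearMap.contDiff _).sub contDiff_const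
  · rw [sub_zero] at hq
    refine ⟨?_, H q hq, fun i => ?_⟩
    · have a0 := hq' 0
      have a1 := hq' 1
      have a2 := hq' 2
      have a3 := hq' 3
      have a4 := hq' 4
      have a5 := hq' 5
      simp only [φ, Matrix.cons_val, lf_ap] at a0 a1 a2 a3 a4 a5
      have b := mul_nonneg hB0 hq.1
      have b' := mul_nonneg hB0 h0
      have c1 := abs_nonneg p.2.1
      have c2 := abs_nonneg p.2.2.1
      have c3 := abs_nonneg p.2.2.2
      rw [mem_closedBall_zero_iff]
      simp only [Prod.norm_def, Real.norm_eq_abs, max_le_iff]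
      refine ⟨?_, abs_le.2 ⟨?_, ?_⟩, abs_le.2 ⟨?_, ?_⟩, abs_le.2 ⟨?_, ?_⟩⟩
      · rw [e3, abs_of_nonneg hq.1]
        linarith [hq.2]
      all_goals linarith [hq.1]
    · fin_cases i
      · exact causal_x hε (Or.inl rfl) U N q
      · exact causal_x hε (Or.inr rfl) U N q
      all_goals exact causal_y hε (by simp) R (hB q)
  · have a0 := hq' 0
    have a1 := hq' 1
    simp only [φ, Matrix.cons_val, lf_ap, hq] at a0 a1
    obtain ⟨t, z⟩ := q
    obtain rfl : t = 0 := hq
    exact hi z (abs_lt.2 ⟨by linarith, by linarith⟩)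
  · have c1 := abs_le.1 (le_refl |p.2.1|)
    have c2 := abs_le.1 (le_refl |p.2.2.1|)
    have c3 := abs_le.1 (le_refl |p.2.2.2|)
    have d2 := abs_nonneg p.2.2.1
    have d3 := abs_nonneg p.2.2.2
    fin_cases i <;> simp only [φ, lf_ap] <;> simp <;> linarith

open Vale.Agent.P354I Vale.Agent.P354A

theorem cx_one {n : ℕ} {x : ℝ} (h : |x| ≤ n) : cx n x = 1 := by
  have := abs_le.1 h
  rw [cx, Real.smoothTransition.one_of_one_le (by linarith),
    Real.smoothTransition.one_of_one_le (by linarith), one_mul]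

/-- Two members of the family agree on the smaller diamond. -/
theorem agree {k : ℝ} {a : ℝ → ℝ} {ε δ cb : ℝ} {K : R4 → Ix → ℝ} {w0 : X3 → Ix → ℝ}
    {w : ℕ → R4 → Ix → ℝ} (hK : SmU K univ) (h : Fam k a ε δ cb K w0 w) {n m : ℕ} {p : R4}
    (hp : -δ < p.1) (hn : |p.1| + |p.2.1| < n) (hm : |p.1| + |p.2.1| < m) : w n p = w m p := by
  obtain ⟨u, hu, eu⟩ := h.supp n |p.1|
  obtain ⟨v, hv, ev⟩ := h.supp m |p.1|
  have su : ContDiff ℝ ∞ u := contDiff_pi.2 hu.sm
  have sv : ContDiff ℝ ∞ v := contDiff_pi.2 hv.sm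
  have sK : ContDiff ℝ ∞ K := contDiff_pi.2 fun i => contDiffOn_univ.1 (hK i)
  have cS : IsCompact (⋃ i, (tsupport (cmp u i) ∪ tsupport (cmp v i))) :=
    isCompact_iUnion fun i => (hu.cs i).union (hv.cs i)
  obtain ⟨R, hR0, hR⟩ := cS.isBounded.subset_ball_lt 0 0
  let χ : ContDiffBump (0 : R4) := ⟨R, R + 1, hR0, by linarith⟩
  have out : ∀ q : R4, q ∉ Metric.ball (0 : R4) R → u =ᶠ[𝓝 q] 0 ∧ v =ᶠ[𝓝 q] 0 := fun q hq => by
    have k : ∀ i, q ∉ tsupport (cmp u i) ∧ q ∉ tsupport (cmp v i) := fun i =>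
      ⟨fun c => hq (hR (mem_iUnion.2 ⟨i, Or.inl c⟩)), fun c => hq (hR (mem_iUnion.2 ⟨i, Or.inr c⟩))⟩
    exact ⟨(eventually_all.2 fun i => notMem_tsupport_iff_eventuallyEq.1 (k i).1).mono
        fun z hz => funext hz,
      (eventually_all.2 fun i => notMem_tsupport_iff_eventuallyEq.1 (k i).2).mono
        fun z hz => funext hz⟩
  have sU : ∀ u : R4 → Ix → ℝ, ContDiff ℝ ∞ u → ContDiff ℝ ∞ fun q => χ q • K q + u q :=
    fun u su => (χ.contDiff.smul sK).add su
  obtain ⟨B, hB⟩ := (isCompact_closedBall (0 : R4) (R + 1)).exists_bound_of_continuousOn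
    (sU u su).continuous.continuousOn
  have bd : ∀ q i, |(χ q • K q + u q) i| ≤ B := fun q i => by
    by_cases c : q ∈ Metric.closedBall (0 : R4) (R + 1)
    · exact (norm_le_pi_norm _ i).trans (hB q c)
    · have c' : R + 1 < dist q 0 := by simpa using c
      have e1 : χ q = 0 := χ.zero_of_le_dist c'.le
      have e2 : u q = 0 := (out q fun d => by
        have : dist q 0 < R := d
        linarith).1.eq_of_nhds
      have := (norm_nonneg _).trans (hB 0 (Metric.mem_closedBall_self (by linarith)))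
      simpa [e1, e2] using this
  obtain ⟨s, hs, es⟩ : ∃ s : ℝ, (s = 1 ∨ s = -1) ∧ s * p.1 = |p.1| := by
    rcases le_total 0 p.1 with c | c
    · exact ⟨1, Or.inl rfl, by rw [one_mul, abs_of_nonneg c]⟩
    · exact ⟨-1, Or.inr rfl, by rw [neg_one_mul, abs_of_nonpos c]⟩
  have lt1 : p.1 < |p.1| + 1 := by linarith [le_abs_self p.1]
  have key := speed (U := fun q => χ q • K q + u q) (U' := fun q => χ q • K q + v q)
    (N := min (n : ℝ) m) (p := p) hs
    (fun i => (contDiff_pi.1 (sU u su) i).contDiffOn) (fun i => (contDiff_pi.1 (sU v sv) i).contDiffOn)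
    bd (by rw [es]; exact abs_nonneg _) (by rw [es]; exact lt_min hn hm) (fun q hq i => ?_)
    (fun z hz => ?_)
  · rw [← eu p lt1, ← ev p lt1]
    exact add_left_cancel key
  · by_cases c : q ∈ Metric.ball (0 : R4) R
    · have q1 : (0 ≤ q.1 ∨ -δ ≤ q.1) ∧ q.1 ≤ |p.1| := by
        have d := abs_nonneg p.1
        rcases hs with rfl | rfl
        · exact ⟨Or.inl (by linarith [hq.1]), by linarith [hq.1, hq.2]⟩
        · exact ⟨Or.inr (by linarith [hq.1, hq.2]), by linarith [hq.1, hq.2]⟩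
      have o : ∀ᶠ z in 𝓝 q, z.1 < |p.1| + 1 :=
        (isOpen_lt continuous_fst continuous_const).mem_nhds (show q.1 < _ by linarith [q1.2])
      have one : ∀ᶠ z in 𝓝 q, χ z = 1 := χ.eventuallyEq_one_of_mem_ball c
      have g : ∀ (u : R4 → Ix → ℝ) n, Sol K u |p.1| → (∀ z : R4, z.1 < |p.1| + 1 → u z = w n z) →
          res (χ q • K q + u q) (dfr (fun q => χ q • K q + u q) q) i = res (K q) (dfr K q) i :=
        fun u n hu eu => by
          rcases q1.1 with d | d
          · rw [← hu.eq q ⟨d, q1.2⟩ i]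
            exact res_congr (U := fun q => χ q • K q + u q) (V := K + u)
              (one.mono fun z hz => by simp [hz]) i
          · rw [← h.eqn n q d i]
            exact res_congr (U := fun q => χ q • K q + u q) (V := K + w n)
              ((o.and one).mono fun z hz => by simp [hz.2, eu z hz.1]) i
      rw [g u n hu eu, g v m hv ev]
    · obtain ⟨a1, a2⟩ := out q c
      exact res_congr (U := fun q => χ q • K q + u q) (V := fun q => χ q • K q + v q)
        ((a1.and a2).mono fun z hz => by simp only [hz.1, hz.2]) i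
  · have z0 : ((0, z) : R4).1 < |p.1| + 1 := by
      have d := abs_nonneg p.1
      simp only
      linarith
    have := lt_min_iff.1 hz
    simp only [eu _ z0, ev _ z0, h.init, cx_one this.1.le, cx_one this.2.le]

theorem glue : GLUE := by
  intro k a ε δ cb K w0 w hK h n p hp hn
  refine agree hK h hp ?_ hn
  push_cast
  linarith [Nat.le_ceil (|p.1| + |p.2.1|)]

end Vale.Agent.P354IG
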